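import Vale.Agent.P281.H383.UD.Core
import Vale.Agent.P281.H603.C.Ctx

/-!
# P281, class C (helper383): the assembly of T-UD
-/

open Set Filter Metric Vale.Agent.P281 Vale.Agent.P281.H713
open Vale.Agent.P272.K (Chart IsKahler IsHermitian)
open Vale.Agent.P281.MF Vale.Agent.P281.ISO
open Vale.Agent.P281.H713.TZ Vale.Agent.P281.H64
open Vale.Agent.P281.H64.Gen
open Vale.Agent.P281.H64.Thin (IsThinSet)
open Vale.Agent.P281.H64.TU (Tame KTame RelFormT HasFormsT IsGen TameOK)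
open Vale.Agent.P281.H603.TE (core)
open Vale.Agent.P281.H603.C (Ctx CTame DegCStmt)
open Vale.Agent.P281.H64.TD (Cub FibInStmt)
open Vale.Agent.P281.H303.UD
open scoped Topology ContDiff Manifold

set_option linter.all false

noncomputable section

namespace Vale.Agent.P281.H383.C

open Vale.Agent.P281.H303.UF Vale.Agent.P281.H303.TD
open Vale.Agent.P281.H383.UD (nDegE_of_imm ndegE_le preconn_pre)

/-- **CT** -/
def CTameOKStmt : Prop :=
  ∀ (n d : ℕ) (X X₁ : Type) [TopologicalSpace X] [T2Space X] [ChartedSpace (Cm n) X]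
    [IsManifold 𝓘(ℂ, Cm n) ω X] [TopologicalSpace X₁] [T2Space X₁] [CompactSpace X₁]
    [ChartedSpace (Cm n) X₁] [IsManifold 𝓘(ℂ, Cm n) ω X₁] (u : X₁ → X)
    (w : Chart n X₁ → Cm n → Matrix (Fin n) (Fin n) ℂ),
    ContMDiff 𝓘(ℂ, Cm n) 𝓘(ℂ, Cm n) ω u → IsHermitian w →
    TameOK (n := n) (CTame (d := d) u w)

/-- **UG for `f` with a Kähler model** (as `H303.UD.OrbMStmt`) -/
def OrbCStmt : Prop :=
  ∀ (p d m r : ℕ) (Z Y : Type) [TopologicalSpace Z] [T2Space Z] [CompactSpace Z]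
    [ChartedSpace (Cm (p + d)) Z]
    [IsManifold 𝓘(ℂ, Cm (p + d)) ω Z] [TopologicalSpace Y] [T2Space Y] [ChartedSpace (Cm p) Y]
    [IsManifold 𝓘(ℂ, Cm p) ω Y] (f : Z → Y) (C : Ctx (p := p) (d := d) f) (S : Set Y)
    (S₁ : Set C.Y₁), 0 < d → C.Ok → C.Good S S₁ →
    (∀ y ∉ S, TK.TE.NDegE (p + d) p d m r f y) →
    (∀ y ∉ S, ¬ TK.TE.NDegE (p + d) p d m (r + 1) f y) →
    (∀ y ∉ S, IsImmE (p + d) p d m f y) → Sᶜ.Nonempty →
    ∃ (g n b nb : ℕ) (Q : (Fin n → ℝ) → (Fin n → ℝ) → ℝ) (QB : (Fin nb → ℝ) → (Fin nb → ℝ) → ℝ)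
      (ι : Type) (U : ι → Set Y) (π : ι → Y → ((Fin n → ℝ) ≃L[ℝ] EuclideanSpace ℂ (Fin g)))
      (ϖ : ι → Y → ((Fin nb → ℝ) ≃L[ℝ] EuclideanSpace ℂ (Fin b)))
      (j : ι → Y → EuclideanSpace ℂ (Fin b) →L[ℂ] EuclideanSpace ℂ (Fin g))
      (ℓ : ι → Y → EuclideanSpace ℂ (Fin g) →L[ℂ] EuclideanSpace ℂ (Fin b))
      (L : ι → Z → (Z → EuclideanSpace ℂ (Fin g)) → Prop)
      (u : ι → Z → (Z → EuclideanSpace ℂ (Fin g)) → EuclideanSpace ℂ (Fin b) → Z),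
      IsOrbM (Cm (p + d)) (Cm p) d (CTame C.u C.w) f S Q QB U π ϖ j ℓ L u ∧ d ≤ r + b ∧
      ∀ y ∉ S, GaussGE (Cm (p + d)) (d := d) f U L r y

/-! ### The inequality -/

/-- the inequality, if the coverings number `m` of the fibres are immersed in tori -/
theorem main (orb : OrbCStmt) (orbD : OrbDStmt) (alg : AlgStmt) (has : H511.UD.HasUDStmt)
    (kod : KodRUStmt) (lift : TU.LiftTStmt) (tame : CTameOKStmt) (compl : ComplStmt)
    {p d m r : ℕ} {X Y : Type} [TopologicalSpace X] [T2Space X]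
    [ChartedSpace (Cm (p + d)) X] [IsManifold 𝓘(ℂ, Cm (p + d)) ω X] [TopologicalSpace Y]
    [T2Space Y] [ChartedSpace (Cm p) Y] [IsManifold 𝓘(ℂ, Cm p) ω Y] {f : X → Y}
    {Δ : Set X → ℝ} (hd : 0 < d) (h : H511.Surf.IsFibration (Cm (p + d)) (Cm p) f Δ)
    {C : Ctx (p := p) (d := d) f} (hC : C.Ok) {S : Set Y} {S₀ : Set C.Y₁} (hG : C.Good S S₀)
    (hS : IsSmallSet (Cm p) S)
    (hP : ∀ S', S ⊆ S' → IsClosed S' → IsProperFibration (n := p + d) (p := p) f S')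
    (hne : Sᶜ.Nonempty) (hN : ∀ y ∉ S, TK.TE.NDegE (p + d) p d m r f y)
    (hN' : ∀ y ∉ S, ¬ TK.TE.NDegE (p + d) p d m (r + 1) f y)
    (himm : ∀ y ∉ S, IsImmE (p + d) p d m f y)
    (hin : ∀ D, Δ D ≠ 0 → ∀ y ∉ S, ¬ f ⁻¹' {y} ⊆ D) :
    ∃ H : ℕ → Set Y, (∀ k, IsThinSet (Cm p) (H k)) ∧ ∀ y, (∀ k, y ∉ H k) →
      ∀ (F : Type) [TopologicalSpace F] [T2Space F] [ChartedSpace (Cm d) F] (i : F → X),
        H511.Surf.IsFibre (Cm (p + d)) (Cm d) f y i →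
        TZ.S.kodR (Cm (p + d)) (Cm d) i Δ + TZ.S.kodF (p + d) p Δ (id : X → X) f ≤
          TZ.S.kodX (Cm (p + d)) Δ := by
  classical
  have : CompactSpace X := h.compact
  have : ConnectedSpace X := h.connected
  set 𝒜 : Set (Set X) := {D | Δ D ≠ 0} with h𝒜
  have hfin : 𝒜.Finite := h.snc.1
  have hprime : ∀ D ∈ 𝒜, J.IsPrime (Cm (p + d)) D := h.snc.2.1
  have hΔ0 : ∀ D, 0 ≤ Δ D := fun D => (snc01 (JB.snc h.snc) D).1
  have hsurj : Function.Surjective f := fun y => (h.fibres y).nonempty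
  have : PreconnectedSpace Y := by
    rw [preconnectedSpace_iff_univ, ← hsurj.range_eq]
    exact isPreconnected_range h.hol.continuous
  have hpre := (compl p Y S hS).2
  have hPS := hP S subset_rfl hS.1
  have hpreX : IsPreconnected (f ⁻¹' S)ᶜ := preconn_pre h.hol hS.1 hPS hpre
  obtain ⟨g, n, b, nb, Q, QB, ι, U, π, ϖ, j, ℓ, L, u, hO, hrb, hGa⟩ :=
    orb p d m r X Y f C S S₀ hd hC hG hN hN' himm hne
  obtain ⟨Lw, hD⟩ := orbD p d n nb g b X Y (CTame C.u C.w) f S Q QB ι U π ϖ j ℓ L u 𝒜 hd h.hol hS.1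
    hpreX hO hfin hprime
  have hU := alg d n nb (Cm (p + d)) (Cm p) X Y (EuclideanSpace ℂ (Fin g))
    (EuclideanSpace ℂ (Fin b)) (CTame C.u C.w) f S Q QB ι U π ϖ j ℓ L u 𝒜 Lw h.hol hO hD
  obtain ⟨s, S', hsd, hSS, hS', hr, hr1⟩ := H364.UD.gen_rank_UD h.hol hS hpre hne hPS hU
    (fun a x β W hL hx ξ => by
      obtain ⟨w', h1, -⟩ := hL
      exact hO.imm a x β (hD.toL a x β w' h1) ξ)
    (fun a x β W hL hx l => by
      obtain ⟨w', h1, -⟩ := hL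
      exact hO.full a x β (hD.toL a x β w' h1) l) hfin hprime
  let e₀ : Cm (p + d) ≃L[ℂ] (Cm p × Cm d) := ContinuousLinearEquiv.ofFinrankEq (by
    simp)
  have h1 : ((s : ℕ∞) : WithBot ℕ∞) + TZ.S.kodF (p + d) p Δ (id : X → X) f ≤
      TZ.S.kodX (Cm (p + d)) Δ := by
    refine H303.UF.first_of fun j₂ h₂ => ?_
    exact lift (p + d) p X Y (Cm d) (CTame C.u C.w) f S' e₀ Δ s j₂
      (tame (p + d) d X C.Z₁ C.u C.w hC.hu hC.kah.toIsHermitian) h.hol hS' (hP S' hSS hS'.1).submersive h.snc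
      (fun y hy => hasForms_mono hSS (has d s n (Cm (p + d)) (Cm p) X Y
        (EuclideanSpace ℂ (Fin g)) (CTame C.u C.w) f S Q ι U π 𝒜 _ e₀ Δ hd h.hol hU
        hfin hprime hΔ0 (fun D hD => lt_of_le_of_ne (hΔ0 D) (Ne.symm hD)) y
        (fun h3 => hy (hSS h3)) (hr y hy))) h₂
  obtain ⟨H, hH, hsub⟩ := hS'.2
  refine ⟨H, hH, fun y hy F _ _ _ i hi => ?_⟩
  have hyS' : y ∉ S' := by
    intro h2
    obtain ⟨k, hk⟩ := mem_iUnion.1 (hsub h2)
    exact hy k hk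
  have hyS : y ∉ S := fun h2 => hyS' (hSS h2)
  have hk : TZ.S.kodR (Cm (p + d)) (Cm d) i Δ ≤ ((s : ℕ∞) : WithBot ℕ∞) :=
    kod p d n nb g b r s X Y (CTame C.u C.w) f Δ S Q QB ι U π ϖ j ℓ L u Lw y F i hd h.hol hPS h.snc hO
      hD hyS (fun D hD' => hin D hD' y hyS) hrb (hGa y hyS) (hr1 y hyS) hi
  exact (add_le_add hk le_rfl).trans h1

/-- the inequality, if the coverings number `k` of the fibres are immersed in tori off a small set -/
theorem ud_core (orb : OrbCStmt) (orbD : OrbDStmt) (alg : AlgStmt) (has : H511.UD.HasUDStmt)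
    (kod : KodRUStmt) (deg : DegCStmt) (compl : ComplStmt) (fi : FibInStmt)
    (lift : TU.LiftTStmt) (tame : CTameOKStmt)
    {p d k : ℕ} {X Y : Type} [TopologicalSpace X] [T2Space X]
    [ChartedSpace (Cm (p + d)) X] [IsManifold 𝓘(ℂ, Cm (p + d)) ω X] [TopologicalSpace Y]
    [T2Space Y] [ChartedSpace (Cm p) Y] [IsManifold 𝓘(ℂ, Cm p) ω Y] {f : X → Y}
    {Δ : Set X → ℝ} (hd : 0 < d) (h : H511.Surf.IsFibration (Cm (p + d)) (Cm p) f Δ)
    {C : Ctx (p := p) (d := d) f} (hC : C.Ok) (hs₁ : Function.Surjective C.f₁)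
    (hv : TZ.S.IsModif (Cm p) C.v) {S₁ : Set Y}
    (hgood : ∀ S', S₁ ⊆ S' → IsSmallSet (Cm p) S' → ∃ S₀ : Set C.Y₁, C.Good S' S₀ ∧
      IsSmallSet (Cm p) S₀)
    (hP : ∀ S', S₁ ⊆ S' → IsClosed S' → IsProperFibration (n := p + d) (p := p) f S')
    (hS₂ : IsSmallSet (Cm p) (S₁ ∪ {y | ¬ IsImmE (p + d) p d k f y})) :
    ∃ H : ℕ → Set Y, (∀ k, IsThinSet (Cm p) (H k)) ∧ ∀ y, (∀ k, y ∉ H k) →
      ∀ (F : Type) [TopologicalSpace F] [T2Space F] [ChartedSpace (Cm d) F] (i : F → X),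
        H511.Surf.IsFibre (Cm (p + d)) (Cm d) f y i →
        TZ.S.kodR (Cm (p + d)) (Cm d) i Δ + TZ.S.kodF (p + d) p Δ (id : X → X) f ≤
          TZ.S.kodX (Cm (p + d)) Δ := by
  classical
  have : CompactSpace X := h.compact
  have : ConnectedSpace X := h.connected
  have hsurj : Function.Surjective f := fun y => (h.fibres y).nonempty
  have : PreconnectedSpace Y := by
    rw [preconnectedSpace_iff_univ, ← hsurj.range_eq]
    exact isPreconnected_range h.hol.continuous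
  have : Nonempty Y := by
    obtain ⟨x⟩ : Nonempty X := inferInstance
    exact ⟨f x⟩
  set S₂ : Set Y := S₁ ∪ {y | ¬ IsImmE (p + d) p d k f y} with hS₂d
  have h12 : S₁ ⊆ S₂ := subset_union_left
  have himm : ∀ y ∉ S₂, IsImmE (p + d) p d k f y := by
    intro y hy
    by_contra h1
    exact hy (Or.inr h1)
  -- the rank of the Gauss maps
  let P : ℕ → Prop := fun R => ∃ y ∉ S₂, TK.TE.NDegE (p + d) p d k R f y
  have hP0 : P 0 := by
    obtain ⟨y, hy⟩ := (compl p Y S₂ hS₂).1.nonempty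
    exact ⟨y, hy, nDegE_of_imm (himm y hy)⟩
  have hPd : ∀ R, P R → R ≤ d := by
    rintro R ⟨y, -, hy⟩
    exact ndegE_le hy
  have hR : P (Nat.findGreatest P d) := Nat.findGreatest_spec (Nat.zero_le d) hP0
  set R := Nat.findGreatest P d with hRdef
  have hN' : ∀ y ∉ S₂, ¬ TK.TE.NDegE (p + d) p d k (R + 1) f y := by
    intro y hy hy'
    have h3 : P (R + 1) := ⟨y, hy, hy'⟩
    have h4 := Nat.le_findGreatest (P := P) (hPd _ h3) h3
    omega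
  obtain ⟨S₂', hG₂, hS₂'⟩ := hgood S₂ h12 hS₂
  obtain ⟨S₃, h23, hS₃, hN⟩ := deg p d k R X Y f C S₂ S₂' hd hC hs₁ hv hG₂ hS₂ hS₂' hR
  obtain ⟨S₄, h34, hS₄, hin⟩ := fibIn_fin fi hd h.hol (S := S₃)
    (fun S' h7 h8 => hP S' ((h12.trans h23).trans h7) h8) hS₃ h.snc.1.toFinset
    (fun D hD => h.snc.2.1 D (h.snc.1.mem_toFinset.1 hD))
  have h24 := h23.trans h34
  obtain ⟨S₄', hG₄, -⟩ := hgood S₄ (h12.trans h24) hS₄
  exact main orb orbD alg has kod lift tame compl hd h hC hG₄ hS₄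
    (fun S' h7 h8 => hP S' ((h12.trans h24).trans h7) h8) (compl p Y S₄ hS₄).1.nonempty
    (fun y hy => hN y fun h5 => hy (h34 h5)) (fun y hy => hN' y fun h5 => hy (h24 h5))
    (fun y hy => himm y fun h5 => hy (h24 h5))
    (fun D hD y hy => hin D (h.snc.1.mem_toFinset.2 hD) y hy)


end Vale.Agent.P281.H383.C
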