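import Vale.Agent.P281.H383.C.Fin
import Vale.Agent.P281.H152.UC.OrbFin
import Vale.Agent.P281.H389.C.Imm
import Vale.Agent.P281.H389.C.Deg
import Vale.Agent.P281.H225.C.Bound
import Vale.Agent.P281.H603.C.Glob
import Vale.Agent.P281.H737.C.Null
import Vale.Agent.P281.H495.C.M1
import Vale.Agent.P281.H83.Sheet
import Vale.Agent.P281.H83.FibImm
import Vale.Agent.P281.H383.UL.Fin
import Vale.Agent.P281.H511.UD.Alg
import Vale.Agent.P281.H511.UD.Has
import Vale.Agent.P281.H349.UK.Fin
import Vale.Agent.P281.H303.TD.Fin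

/-!
# P281, class C (helper383): T-UD for the class C, all the blocks plugged
-/

open Set Filter Metric Vale.Agent.P281 Vale.Agent.P281.H713
open Vale.Agent.P281.H713.TZ Vale.Agent.P281.H64
open scoped Topology ContDiff Manifold

noncomputable section

namespace Vale.Agent.P281.H383.C

open Vale.Agent.P281.H303.UF

theorem dglob : H603.C.DGlobCStmt :=
  H603.C.dglobC H495.C.sec (H83.Sheet.covInj_of H495.C.sec) TK.inputs

theorem boundC : H603.C.BoundCStmt := H225.C.boundC' H737.C.null (H485.U.norm1 H864.K.e1)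

theorem dich : ImmDichCStmt := by
  intro p d m Z Y _ _ _ _ _ _ _ _ _ _ _ f C S S₁ hd hC hG hS y₁ hy₁ h
  exact H389.C.immDichC dglob hd hC hG hS hy₁ h

/-- **T-UD for the class C** -/
theorem tudC : TUDCStmt :=
  tudC_of (H152.UC.orbC TK.inputs dglob boundC) H383.UL.orbD H511.UD.algStmt H511.UD.hasUD
    H349.UK.kodRU (H389.C.degC dglob) dich (H83.fibImm_of H152.K.ab) crit H383.Gen.compl
    H485.Gen.har H737.Gen.exc H364.TD.fibIn H383.U.liftT cTameOK

end Vale.Agent.P281.H383.C
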