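import Vale.Agent.P281.H383.C.Core
import Vale.Agent.P281.H349.NF.NeatF
import Vale.Agent.P281.H64.TV.Refl

/-!
# P281, class C (helper383): the context given by a modification `u : X₁ → X`, `X₁` Kähler
-/

open Set Filter Metric Vale.Agent.P281 Vale.Agent.P281.H713
open Vale.Agent.P272.K (Chart IsKahler IsHermitian)
open Vale.Agent.P281.MF Vale.Agent.P281.ISO
open Vale.Agent.P281.H713.TZ Vale.Agent.P281.H64
open Vale.Agent.P281.H64.Gen
open Vale.Agent.P281.H64.Thin (IsThinSet)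
open Vale.Agent.P281.H603.C (Ctx CTame DegCStmt)
open Vale.Agent.P281.H603.KodN (Mod0 mod0)
open scoped Topology ContDiff Manifold

set_option linter.all false

noncomputable section

namespace Vale.Agent.P281.H383.C

open Vale.Agent.P281.H308.Bir (Mod inv inv_u u_inv tendsto_inv)

/-! ### Connectedness -/

section Conn

variable {n : ℕ} {X X₁ : Type} [TopologicalSpace X] [CompactSpace X] [ChartedSpace (Cm n) X]
  [IsManifold 𝓘(ℂ, Cm n) ω X] [TopologicalSpace X₁] [ChartedSpace (Cm n) X₁]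
  [IsManifold 𝓘(ℂ, Cm n) ω X₁] {u : X₁ → X}

/-- the fibres of a modification are connected -/
theorem fib_conn (har : HartogsStmt) (exc : ExcStmt) (hu : TZ.S.IsModif (Cm n) u) (x : X) :
    IsConnected (u ⁻¹' {x}) := by
  classical
  haveI : T2Space X := hu.1.1
  haveI : T2Space X₁ := hu.1.2.1
  have hM := H349.NF.mod_modif exc hu
  have hN := exc n X X₁ u hu
  set N := u '' excSet (Cm n) u with hNd
  have hcont : Continuous u := hu.2.1.continuous
  obtain ⟨z₀, hz₀⟩ := hM.surj x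
  refine ⟨⟨z₀, hz₀⟩, ?_⟩
  have hcpt : IsCompact (u ⁻¹' {x}) := hu.2.2.1.isCompact_preimage isCompact_singleton
  rw [isPreconnected_iff_subset_of_fully_disjoint_closed (isClosed_singleton.preimage hcont)]
  intro A B hA hB hAB hdis
  obtain ⟨V₁, V₂, hV₁, hV₂, h1, h2, hVd⟩ := SeparatedNhds.of_isCompact_isCompact
    (hcpt.inter_right hA) (hcpt.inter_right hB)
    (hdis.mono inter_subset_right inter_subset_right)
  set O : Set X := (u '' (V₁ ∪ V₂)ᶜ)ᶜ with hO
  have hOo : IsOpen O := (hM.closed _ (hV₁.union hV₂).isClosed_compl).isOpen_compl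
  have hxO : x ∈ O := by
    rintro ⟨z, hz, hzx⟩
    apply hz
    rcases hAB (show z ∈ u ⁻¹' {x} from hzx) with h3 | h3
    · exact Or.inl (h1 ⟨hzx, h3⟩)
    · exact Or.inr (h2 ⟨hzx, h3⟩)
  have hOV : ∀ z, u z ∈ O → z ∈ V₁ ∨ z ∈ V₂ := by
    intro z hz
    by_contra h3
    exact hz ⟨z, h3, rfl⟩
  let g : X → ℂ := fun y => if inv hM y ∈ V₁ then 1 else 0
  have hg : ∀ y ∈ O, y ∉ N → HolV (Cm n) g y := by
    intro y hy hyN
    obtain ⟨z, rfl⟩ := hM.surj y
    have h3 := tendsto_inv hM hyN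
    have h4 : inv hM (u z) = z := inv_u hM hyN
    rcases hOV z hy with h5 | h5
    · have h6 : ∀ᶠ y in 𝓝 (u z), g y = 1 := by
        filter_upwards [h3.eventually (hV₁.mem_nhds h5)] with y hy
        exact if_pos hy
      exact (contMDiffAt_const (c := (1 : ℂ))).congr_of_eventuallyEq h6
    · have h6 : ∀ᶠ y in 𝓝 (u z), g y = 0 := by
        filter_upwards [h3.eventually (hV₂.mem_nhds h5)] with y hy
        exact if_neg fun h7 => disjoint_left.1 hVd h7 hy
      exact (contMDiffAt_const (c := (0 : ℂ))).congr_of_eventuallyEq h6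
  obtain ⟨g', hg', hgg⟩ := har n X N O g hN hOo hg
  have hlim : ∀ z, u z = x → ∀ (V : Set X₁) (c : ℂ), IsOpen V → z ∈ V →
      (∀ w ∈ V, u w ∉ N → g (u w) = c) → g' x = c := by
    intro z hz V c hV hzV hVc
    have h3 : ContinuousAt (fun w => g' (u w)) z := by
      refine ContinuousAt.comp (g := g') ?_ hcont.continuousAt
      rw [hz]
      exact ContMDiffAt.continuousAt (hg' x hxO)
    have hd : Dense (u ⁻¹' Nᶜ) := hM.dpre _ hN.1.isOpen_compl hM.ndense
    have h4 : ∃ᶠ w in 𝓝 z, w ∈ u ⁻¹' Nᶜ := mem_closure_iff_frequently.1 (hd z)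
    have h5 : ∀ᶠ w in 𝓝 z, w ∈ V ∧ u w ∈ O := inter_mem (hV.mem_nhds hzV)
      (hcont.continuousAt.preimage_mem_nhds (by rw [hz]; exact hOo.mem_nhds hxO))
    by_contra h6
    rw [← hz] at h6
    obtain ⟨w, hw, ⟨hwV, hwO⟩, hw2⟩ := (h4.and_eventually (h5.and (h3.eventually_ne h6))).exists
    exact hw2 ((hgg _ hwO hw).trans (hVc w hwV hw))
  by_contra hcon
  push Not at hcon
  obtain ⟨hc1, hc2⟩ := hcon
  obtain ⟨z, hz, hzA⟩ := not_subset.1 hc1
  obtain ⟨z', hz', hzB'⟩ := not_subset.1 hc2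
  have hzB : z ∈ B := (hAB hz).resolve_left hzA
  have hzA' : z' ∈ A := (hAB hz').resolve_right hzB'
  have e1 : g' x = 0 := hlim z hz V₂ 0 hV₂ (h2 ⟨hz, hzB⟩) fun w hw hwN => by
    show (if inv hM (u w) ∈ V₁ then (1 : ℂ) else 0) = 0
    rw [inv_u hM hwN, if_neg fun h7 => disjoint_left.1 hVd h7 hw]
  have e2 : g' x = 1 := hlim z' hz' V₁ 1 hV₁ (h1 ⟨hz', hzA'⟩) fun w hw hwN => by
    show (if inv hM (u w) ∈ V₁ then (1 : ℂ) else 0) = 1
    rw [inv_u hM hwN, if_pos hw]
  rw [e1] at e2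
  exact zero_ne_one e2

end Conn

/-- preimages of connected closed sets under closed maps with connected fibres -/
theorem preimage_conn {X X₁ : Type} [TopologicalSpace X] [TopologicalSpace X₁] {u : X₁ → X}
    (hcl : IsClosedMap u) (hcont : Continuous u) (hf : ∀ x, IsConnected (u ⁻¹' {x})) {K : Set X}
    (hK : IsClosed K) (hKc : IsConnected K) : IsConnected (u ⁻¹' K) := by
  refine ⟨?_, ?_⟩
  · obtain ⟨x, hx⟩ := hKc.nonempty
    obtain ⟨z, hz⟩ := (hf x).nonempty
    have hz' : u z = x := hz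
    exact ⟨z, by show u z ∈ K; rw [hz']; exact hx⟩
  rw [isPreconnected_iff_subset_of_fully_disjoint_closed (hK.preimage hcont)]
  intro A B hA hB hAB hdis
  have hfib : ∀ x ∈ K, u ⁻¹' {x} ⊆ A ∨ u ⁻¹' {x} ⊆ B := by
    intro x hx
    refine isPreconnected_iff_subset_of_disjoint_closed.1 (hf x).isPreconnected A B hA hB ?_ ?_
    · intro z hz
      have hz' : u z = x := hz
      exact hAB (by show u z ∈ K; rw [hz']; exact hx)
    · rw [disjoint_iff_inter_eq_empty.1 hdis, inter_empty]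
  have hA' : IsClosed (u '' (A ∩ u ⁻¹' K)) := hcl _ (hA.inter (hK.preimage hcont))
  have hB' : IsClosed (u '' (B ∩ u ⁻¹' K)) := hcl _ (hB.inter (hK.preimage hcont))
  have hcov : K ⊆ u '' (A ∩ u ⁻¹' K) ∪ u '' (B ∩ u ⁻¹' K) := by
    intro x hx
    obtain ⟨z, hz⟩ := (hf x).nonempty
    have hz' : u z = x := hz
    have hzK : z ∈ u ⁻¹' K := by show u z ∈ K; rw [hz']; exact hx
    rcases hAB hzK with h | h
    · exact Or.inl ⟨z, ⟨h, hzK⟩, hz'⟩
    · exact Or.inr ⟨z, ⟨h, hzK⟩, hz'⟩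
  have hdis' : Disjoint (u '' (A ∩ u ⁻¹' K)) (u '' (B ∩ u ⁻¹' K)) := by
    rw [disjoint_left]
    rintro _ ⟨z, ⟨hzA, hzK⟩, rfl⟩ ⟨z', ⟨hzB', -⟩, hzz⟩
    rcases hfib (u z) hzK with h | h
    · exact disjoint_left.1 hdis (h (show u z' = u z from hzz)) hzB'
    · exact disjoint_left.1 hdis hzA (h (show u z = u z from rfl))
  rcases (isPreconnected_iff_subset_of_fully_disjoint_closed hK).1 hKc.isPreconnected _ _ hA' hB'
    hcov hdis' with h | h
  · left
    intro z hz
    obtain ⟨a, ⟨haA, -⟩, haz⟩ := h hz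
    rcases hfib (u z) hz with h1 | h1
    · exact h1 rfl
    · exact (disjoint_left.1 hdis haA (h1 (show u a = u z from haz))).elim
  · right
    intro z hz
    obtain ⟨a, ⟨haB, -⟩, haz⟩ := h hz
    rcases hfib (u z) hz with h1 | h1
    · exact (disjoint_left.1 hdis (h1 (show u a = u z from haz)) haB).elim
    · exact h1 rfl

/-! ### The context -/

theorem exc_id {n : ℕ} {Y : Type} [TopologicalSpace Y] [ChartedSpace (Cm n) Y] :
    excSet (Cm n) (id : Y → Y) = ∅ := by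
  rw [eq_empty_iff_forall_notMem]
  intro y hy
  apply hy
  rw [mfderiv_id]
  exact Function.bijective_id

section ctx

variable {p d : ℕ} {X Y X₁ : Type} [TopologicalSpace X] [T2Space X] [CompactSpace X]
  [ChartedSpace (Cm (p + d)) X] [IsManifold 𝓘(ℂ, Cm (p + d)) ω X]
  [TopologicalSpace Y] [T2Space Y] [ChartedSpace (Cm p) Y] [IsManifold 𝓘(ℂ, Cm p) ω Y]
  [TopologicalSpace X₁] [T2Space X₁] [CompactSpace X₁] [ChartedSpace (Cm (p + d)) X₁]
  [IsManifold 𝓘(ℂ, Cm (p + d)) ω X₁] {f : X → Y} {u : X₁ → X}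
  {w : Chart (p + d) X₁ → Cm (p + d) → Matrix (Fin (p + d)) (Fin (p + d)) ℂ}

/-- the model `f ∘ u` of `f` -/
def mctx (f : X → Y) (u : X₁ → X)
    (w : Chart (p + d) X₁ → Cm (p + d) → Matrix (Fin (p + d)) (Fin (p + d)) ℂ) :
    Ctx (p := p) (d := d) f where
  Z₁ := X₁
  Y₁ := Y
  f₁ := fun z => f (u z)
  u := u
  v := id
  w := w

theorem mctx_ok (exc : ExcStmt) (hf : ContMDiff 𝓘(ℂ, Cm (p + d)) 𝓘(ℂ, Cm p) ω f)
    (hu : TZ.S.IsModif (Cm (p + d)) u) (hw : IsKahler w) : (mctx f u w).Ok := by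
  have hM := H349.NF.mod_modif exc hu
  have hN := exc (p + d) X X₁ u hu
  refine ⟨hw, hf, hf.comp hu.2.1, hu.2.1, contMDiff_id, mod0 hu, mod0 StatV.isModif_id, hN, ?_,
    fun _ => rfl⟩
  refine (hM.dpre _ hN.1.isOpen_compl hM.ndense).mono fun z hz => ?_
  intro hz'
  exact hz (mem_image_of_mem u hz')

/-- the good sets -/
theorem exists_good (crit : CritStmt) (compl : ComplStmt) (har : HartogsStmt) (exc : ExcStmt)
    {Δ : Set X → ℝ} (h : H511.Surf.IsFibration (Cm (p + d)) (Cm p) f Δ)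
    (hu : TZ.S.IsModif (Cm (p + d)) u) : ∃ S₁ : Set Y, IsSmallSet (Cm p) S₁ ∧
      (∀ S', S₁ ⊆ S' → IsClosed S' → IsProperFibration (n := p + d) (p := p) f S') ∧
      ∀ S', S₁ ⊆ S' → IsSmallSet (Cm p) S' → (mctx f u w).Good S' S' := by
  have hM := H349.NF.mod_modif exc hu
  have hsurj : Function.Surjective f := fun y => (h.fibres y).nonempty
  have : ConnectedSpace X := h.connected
  have : PreconnectedSpace Y := by
    rw [preconnectedSpace_iff_univ, ← hsurj.range_eq]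
    exact isPreconnected_range h.hol.continuous
  obtain ⟨S, hS, hP⟩ := crit (p + d) p X Y f h.hol h.fibres
  have hfib : ∀ y, IsConnected ((fun z => f (u z)) ⁻¹' {y}) := fun y =>
    preimage_conn (u := u) hM.closed hu.2.1.continuous (fib_conn har exc hu)
      (isClosed_singleton.preimage h.hol.continuous) (h.fibres y)
  obtain ⟨T, hT, hQ⟩ := crit (p + d) p X₁ Y (fun z => f (u z)) (h.hol.comp hu.2.1) hfib
  refine ⟨S ∪ T, hS.union hT, fun S' h1 h2 => hP S' (subset_union_left.trans h1) h2,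
    fun S' h1 h2 => ⟨hP S' (subset_union_left.trans h1) h2.1,
      hQ S' (subset_union_right.trans h1) h2.1, (compl p Y S' h2).2, (compl p Y S' h2).2,
      fun y hy hy' => ?_, fun y hy => hy⟩⟩
  have h3 : (mctx f u w).v '' excSet (Cm p) (mctx f u w).v = (id : Y → Y) '' excSet (Cm p) (id : Y → Y) :=
    rfl
  rw [h3, exc_id, image_empty] at hy'
  exact hy'

end ctx

end Vale.Agent.P281.H383.C
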