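import Vale.Agent.P281.H383.C.Core
import Vale.Agent.P281.H83.MTame

/-!
# P281, class C (helper383): the slices given by charts are tame and immersed
-/

open Set Filter Metric Vale.Agent.P281 Vale.Agent.P281.H713
open Vale.Agent.P272.K (Chart IsKahler IsHermitian Cm)
open Vale.Agent.P281.H713.TZ
open Vale.Agent.P281.H64.TU (Tame TameOK)
open Vale.Agent.P281.H603.C (CTame MTame)
open scoped Topology ContDiff Manifold

noncomputable section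

namespace Vale.Agent.P281.H383.C

theorem cTameOK : CTameOKStmt := by
  intro n d X X₁ _ _ _ _ _ _ _ _ _ u w hu hw y z₀ P hy
  obtain ⟨N, hN, K, hK, hT⟩ := H83.mtameOK n d X X₁ u w hu hw y z₀ P hy
  refine ⟨N ∩ (chartAt (Cm n) z₀).source,
    inter_mem hN ((chartAt (Cm n) z₀).open_source.mem_nhds hy), K, hK, fun Q v₀ r hr hQ =>
    ⟨hT Q v₀ r hr fun v hv => ⟨(hQ v hv).1, (hQ v hv).2.1.1, (hQ v hv).2.2⟩, fun v hv ξ hξ => ?_⟩⟩
  obtain ⟨h1, ⟨-, h2⟩, -⟩ := hQ v hv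
  have h3 : (fun v' => P (chartAt (Cm n) z₀ (Q v'))) =ᶠ[𝓝 v] id := by
    filter_upwards [isOpen_ball.mem_nhds hv] with v' hv'
    exact (hQ v' hv').2.2
  have h4 : MDifferentiableAt 𝓘(ℂ, Cm n) 𝓘(ℂ, Cm n) (chartAt (Cm n) z₀) (Q v) :=
    ((contMDiffOn_chart (I := 𝓘(ℂ, Cm n)) (n := ω) (x := z₀)).contMDiffAt
      ((chartAt (Cm n) z₀).open_source.mem_nhds h2)).mdifferentiableAt (by simp)
  have h5 : MDifferentiableAt 𝓘(ℂ, Cm d) 𝓘(ℂ, Cm n) Q v := h1.mdifferentiableAt (by simp)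
  have h6 := (P.hasFDerivAt.hasMFDerivAt (x := chartAt (Cm n) z₀ (Q v))).comp v
    (h4.hasMFDerivAt.comp v h5.hasMFDerivAt)
  have h7 : HasMFDerivAt 𝓘(ℂ, Cm d) 𝓘(ℂ, Cm d) (fun v' => P (chartAt (Cm n) z₀ (Q v'))) v
      (ContinuousLinearMap.id ℂ (Cm d)) := (hasMFDerivAt_id (I := 𝓘(ℂ, Cm d)) v).congr_of_eventuallyEq h3
  have h8 := hasMFDerivAt_unique h6 h7
  have h9 := congrArg (fun T : Cm d →L[ℂ] Cm d => T ξ) h8
  have h10 : ξ = P (mfderiv 𝓘(ℂ, Cm n) 𝓘(ℂ, Cm n) (chartAt (Cm n) z₀) (Q v)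
      (mfderiv 𝓘(ℂ, Cm d) 𝓘(ℂ, Cm n) Q v ξ)) := h9.symm
  rw [hξ, map_zero] at h10
  rw [h10]
  exact map_zero P

end Vale.Agent.P281.H383.C
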