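import Vale.Agent.P281.H383.C.Mod
import Vale.Agent.P281.H383.C.Tame
import Vale.Agent.P281.H225.UL.Cov

/-!
# P281, class C (helper383): fibrations of manifolds of the class C
-/

open Set Filter Metric Vale.Agent.P281 Vale.Agent.P281.H713
open Vale.Agent.P272.K (Chart IsKahler IsHermitian)
open Vale.Agent.P281.MF Vale.Agent.P281.ISO
open Vale.Agent.P281.H713.TZ Vale.Agent.P281.H64
open Vale.Agent.P281.H64.Gen
open Vale.Agent.P281.H64.Thin (IsThinSet)
open Vale.Agent.P281.H64.TU (IsGen)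
open Vale.Agent.P281.H603.C (Ctx CTame DegCStmt)
open Vale.Agent.P281.H64.TD (FibInStmt)
open Vale.Agent.P281.H303.UD
open scoped Topology ContDiff Manifold

set_option linter.all false

noncomputable section

namespace Vale.Agent.P281.H383.C

/-- `X` has a modification which is a Kähler manifold. (If `X` is compact: `X` is in the class C of
Fujiki.) -/
def ModKahler (n : ℕ) (X : Type) [TopologicalSpace X] [ChartedSpace (Cm n) X] : Prop :=
  ∃ (X₁ : Type) (_ : TopologicalSpace X₁) (_ : ChartedSpace (Cm n) X₁) (u : X₁ → X),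
    TZ.S.IsModif (Cm n) u ∧
      ∃ w : Chart n X₁ → Cm n → Matrix (Fin n) (Fin n) ℂ, IsKahler w

/-- **CI** -/
def ImmDichCStmt : Prop :=
  ∀ (p d m : ℕ) (Z Y : Type) [TopologicalSpace Z] [T2Space Z] [CompactSpace Z]
    [ChartedSpace (Cm (p + d)) Z]
    [IsManifold 𝓘(ℂ, Cm (p + d)) ω Z] [TopologicalSpace Y] [T2Space Y] [CompactSpace Y]
    [PreconnectedSpace Y] [ChartedSpace (Cm p) Y]
    [IsManifold 𝓘(ℂ, Cm p) ω Y] (f : Z → Y) (C : Ctx (p := p) (d := d) f) (S : Set Y)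
    (S₁ : Set C.Y₁), 0 < d → C.Ok → C.Good S S₁ → IsSmallSet (Cm p) S → ∀ y₁ ∉ S,
    IsImmE (p + d) p d m f y₁ → IsSmallSet (Cm p) (S ∪ {y | ¬ IsImmE (p + d) p d m f y})

/-- **T-UD for the class C** -/
def TUDCStmt : Prop :=
  ∀ (p d : ℕ) (X Y : Type) [tX : TopologicalSpace X] [cX : ChartedSpace (Cm (p + d)) X]
    [tY : TopologicalSpace Y] [cY : ChartedSpace (Cm p) Y] (f : X → Y) (Δ : Set X → ℝ), 0 < d →
    H511.Surf.IsFibration (Cm (p + d)) (Cm p) f Δ → ModKahler (p + d) X →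
    ∃ H : ℕ → Set Y, (∀ k, IsThinSet (Cm p) (H k)) ∧ ∀ y, (∀ k, y ∉ H k) →
      ∀ (F : Type) [TopologicalSpace F] [T2Space F] [ChartedSpace (Cm d) F] (i : F → X),
        H511.Surf.IsFibre (Cm (p + d)) (Cm d) f y i →
        (∃ (F' : Type) (_ : TopologicalSpace F') (_ : T2Space F') (_ : ChartedSpace (Cm d) F')
          (i' : F' → X), H511.Surf.IsFibre (Cm (p + d)) (Cm d) f y i' ∧ IsGen d F') →
        TZ.S.kodR (Cm (p + d)) (Cm d) i Δ + TZ.S.kodF (p + d) p Δ (id : X → X) f ≤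
          TZ.S.kodX (Cm (p + d)) Δ

/-- the number of sheets is bounded -/
theorem exists_encard {n d : ℕ} {F X : Type} [TopologicalSpace F] [CompactSpace F]
    [ChartedSpace (Cm d) F] [IsManifold 𝓘(ℂ, Cm d) ω F] [TopologicalSpace X]
    [ChartedSpace (Cm n) X] [IsManifold 𝓘(ℂ, Cm n) ω X] {i : F → X}
    (hi : ContMDiff 𝓘(ℂ, Cm d) 𝓘(ℂ, Cm n) ω i)
    (himm : ∀ t, Function.Injective (mfderiv 𝓘(ℂ, Cm d) 𝓘(ℂ, Cm n) i t)) :
    ∃ m : ℕ, ∀ x, (i ⁻¹' {x}).encard ≤ m := by
  classical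
  have h1 : ∀ t : F, ∃ U ∈ 𝓝 t, InjOn i U := by
    intro t
    obtain ⟨R, hR⟩ := H225.UL.exists_left (hi t) (himm t)
    refine ⟨{s | R (i s) = s}, hR, fun s hs s' hs' h => ?_⟩
    have h2 : R (i s) = s := hs
    have h3 : R (i s') = s' := hs'
    rw [← h2, ← h3, h]
  choose U hU hinj using h1
  obtain ⟨T, hT⟩ := CompactSpace.elim_nhds_subcover U hU
  have h2 : ∀ s : F, ∃ t ∈ T, s ∈ U t := by
    intro s
    have h3 : s ∈ ⋃ t ∈ T, U t := by
      rw [hT]
      trivial
    simpa using h3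
  choose c hcT hcU using h2
  refine ⟨T.card, fun x => ?_⟩
  rw [← Set.encard_coe_eq_coe_finsetCard]
  refine Set.encard_le_encard_of_injOn (f := c) (fun s _ => hcT s) fun s hs s' hs' h => ?_
  have h4 : i s = i s' := by
    have h5 : i s = x := hs
    have h6 : i s' = x := hs'
    rw [h5, h6]
  exact hinj (c s) (hcU s) (by rw [h]; exact hcU s') h4

/-- **T-UD for the class C**, from the blocks -/
theorem tudC_of (orb : OrbCStmt) (orbD : OrbDStmt) (alg : AlgStmt) (has : H511.UD.HasUDStmt)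
    (kod : KodRUStmt) (deg : DegCStmt) (dich : ImmDichCStmt) (fibI : FibImmStmt)
    (crit : CritStmt) (compl : ComplStmt) (har : HartogsStmt) (exc : ExcStmt) (fi : FibInStmt)
    (lift : TU.LiftTStmt) (tame : CTameOKStmt) : TUDCStmt := by
  classical
  intro p d X Y _ _ _ _ f Δ hd h hX
  have : T2Space X := h.hausdorff.1
  have : T2Space Y := h.hausdorff.2
  have : CompactSpace X := h.compact
  have : ConnectedSpace X := h.connected
  have : IsManifold 𝓘(ℂ, Cm (p + d)) ω X := h.manifold.1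
  have : IsManifold 𝓘(ℂ, Cm p) ω Y := h.manifold.2
  have hsurj : Function.Surjective f := fun y => (h.fibres y).nonempty
  have : PreconnectedSpace Y := by
    rw [preconnectedSpace_iff_univ, ← hsurj.range_eq]
    exact isPreconnected_range h.hol.continuous
  have : CompactSpace Y := by
    refine ⟨?_⟩
    rw [← hsurj.range_eq]
    exact isCompact_range h.hol.continuous
  obtain ⟨X₁, _, _, u, hu, w, hw⟩ := hX
  have : T2Space X₁ := hu.1.2.1
  have : IsManifold 𝓘(ℂ, Cm (p + d)) ω X₁ := hu.1.2.2.2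
  have : CompactSpace X₁ := by
    refine ⟨?_⟩
    have h1 := hu.2.2.1.isCompact_preimage (isCompact_univ (X := X))
    rwa [preimage_univ] at h1
  obtain ⟨S₁, hS₁, hP, hgood⟩ := exists_good (w := w) crit compl har exc h hu
  have hok := mctx_ok exc h.hol hu hw
  have hus : Function.Surjective u := (H349.NF.mod_modif exc hu).surj
  have key : ∀ m : ℕ, ∃ H : ℕ → Set Y, (∀ k, IsThinSet (Cm p) (H k)) ∧ ∀ y, (∀ k, y ∉ H k) →
      (∃ y₁ ∉ S₁, IsImmE (p + d) p d m f y₁) →
      ∀ (F : Type) [TopologicalSpace F] [T2Space F] [ChartedSpace (Cm d) F] (i : F → X),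
        H511.Surf.IsFibre (Cm (p + d)) (Cm d) f y i →
        TZ.S.kodR (Cm (p + d)) (Cm d) i Δ + TZ.S.kodF (p + d) p Δ (id : X → X) f ≤
          TZ.S.kodX (Cm (p + d)) Δ := by
    intro m
    by_cases hm : ∃ y₁ ∉ S₁, IsImmE (p + d) p d m f y₁
    · obtain ⟨y₁, hy₁, him⟩ := hm
      obtain ⟨H, hH, hmain⟩ := ud_core orb orbD alg has kod deg compl fi lift tame (k := m) hd h
        hok (hsurj.comp hus) StatV.isModif_id
        (fun S' h1 h2 => ⟨S', hgood S' h1 h2, h2⟩) hP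
        (dich p d m X Y f (mctx f u w) S₁ S₁ hd hok (hgood S₁ subset_rfl hS₁) hS₁ y₁ hy₁ him)
      exact ⟨H, hH, fun y hy _ => hmain y hy⟩
    · obtain ⟨H, hH, -⟩ := hS₁.2
      exact ⟨H, hH, fun y hy hm' => absurd hm' hm⟩
  choose H hH hmain using key
  obtain ⟨H₁, hH₁, hsub⟩ := hS₁.2
  refine ⟨fun k => if k % 2 = 0 then H₁ (k / 2) else H (k / 2).unpair.1 (k / 2).unpair.2,
    fun k => ?_, fun y hy F _ _ _ i hi hF' => ?_⟩
  · dsimp only
    split_ifs
    · exact hH₁ _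
    · exact hH _ _
  · have hy₁ : ∀ k, y ∉ H₁ k := by
      intro k hk
      refine hy (2 * k) ?_
      have h5 : (2 * k) / 2 = k := by omega
      have h6 : (2 * k) % 2 = 0 := by omega
      dsimp only
      rw [h5, h6, if_pos rfl]
      exact hk
    have hy₂ : ∀ m k, y ∉ H m k := by
      intro m k hk
      refine hy (2 * Nat.pair m k + 1) ?_
      have h5 : (2 * Nat.pair m k + 1) / 2 = Nat.pair m k := by omega
      have h6 : (2 * Nat.pair m k + 1) % 2 = 1 := by omega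
      dsimp only
      rw [h5, h6, if_neg one_ne_zero, Nat.unpair_pair]
      exact hk
    have hyS : y ∉ S₁ := fun h1 => by
      obtain ⟨k, hk⟩ := mem_iUnion.1 (hsub h1)
      exact hy₁ k hk
    obtain ⟨F', _, _, _, i', hi', hgen⟩ := hF'
    have := hi'.manifold
    have := hi'.compact
    obtain ⟨m, hm⟩ := exists_encard hi'.hol hi'.immersion
    have him := fibI p d m X Y f S₁ hd h.hol (hP S₁ subset_rfl hS₁.1) y hyS F' i' hi' hm hgen
    exact hmain m y (hy₂ m) ⟨y, hyS, him⟩ F i hi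

end Vale.Agent.P281.H383.C
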